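import Vale.Agent.P160L.EM

namespace Vale.Agent.P160

open Finset Filter

theorem asym3_floor {y : ℝ} (hy : 1 ≤ y) : y / 2 ≤ (⌊y⌋₊ : ℝ) := by
  have h1 := Nat.lt_floor_add_one y
  have h2 : 1 ≤ ⌊y⌋₊ := Nat.le_floor (by exact_mod_cast hy)
  have h3 : (1 : ℝ) ≤ (⌊y⌋₊ : ℝ) := by exact_mod_cast h2
  linarith

theorem asym3_rho {γ C : ℝ} (hγ : 0 < γ) (hC : C = 256 * 400 ^ 3 / γ ^ 3) (B n s i : ℕ)
    (hB : (1 : ℝ) ≤ B) (hn : (0 : ℝ) < n) (h1 : (n : ℝ) ≤ (B : ℝ) ^ 100)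
    (hs : γ * n / (400 * B) ≤ s) (h4 : (B : ℝ) ^ 300 * (1 / 4) ^ B ≤ C) :
    emB (8 * B ^ (i + 1)) B s ^ 2 * (n : ℝ) ^ 3 ≤ C * (B : ℝ) ^ (2 * i + 5) := by
  have hC0 : 0 < C := by rw [hC]; positivity
  have hB0 : (0 : ℝ) < B := by linarith
  have hs0 : (0 : ℝ) < s := lt_of_lt_of_le (by positivity) hs
  unfold emB
  rcases max_cases ((1 / 2 : ℝ) ^ B) (2 * ((8 * B ^ (i + 1) : ℕ) : ℝ) * elo s / s) with h | h
  · rw [h.1]
    have e1 : ((1 / 2 : ℝ) ^ B) ^ 2 = (1 / 4) ^ B := by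
      rw [← pow_mul, mul_comm, pow_mul]
      norm_num
    have e2 : (n : ℝ) ^ 3 ≤ (B : ℝ) ^ 300 := by
      calc (n : ℝ) ^ 3 ≤ ((B : ℝ) ^ 100) ^ 3 := pow_le_pow_left₀ hn.le h1 3
        _ = (B : ℝ) ^ 300 := by rw [← pow_mul]
    have e3 : (1 : ℝ) ≤ (B : ℝ) ^ (2 * i + 5) := one_le_pow₀ hB
    rw [e1]
    calc (1 / 4 : ℝ) ^ B * (n : ℝ) ^ 3 ≤ (1 / 4) ^ B * (B : ℝ) ^ 300 :=
          mul_le_mul_of_nonneg_left e2 (by positivity)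
      _ ≤ C := by rw [mul_comm]; exact h4
      _ ≤ C * (B : ℝ) ^ (2 * i + 5) := le_mul_of_one_le_right hC0.le e3
  · rw [h.1]
    have h5 := elo_sq s
    have h6 : γ * n ≤ 400 * B * s := by
      rw [div_le_iff₀ (by positivity)] at hs
      linarith
    have h7 : (γ * n) ^ 3 ≤ (400 * B * s) ^ 3 := pow_le_pow_left₀ (by positivity) h6 3
    have h8 : (n : ℝ) ^ 3 ≤ (400 * B * s) ^ 3 / γ ^ 3 := by
      rw [le_div_iff₀ (by positivity)]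
      calc (n : ℝ) ^ 3 * γ ^ 3 = (γ * n) ^ 3 := by ring
        _ ≤ _ := h7
    push_cast
    calc (2 * (8 * (B : ℝ) ^ (i + 1)) * elo s / s) ^ 2 * (n : ℝ) ^ 3
        ≤ (2 * (8 * (B : ℝ) ^ (i + 1)) * elo s / s) ^ 2 * ((400 * B * s) ^ 3 / γ ^ 3) :=
          mul_le_mul_of_nonneg_left h8 (sq_nonneg _)
      _ = (C * (B : ℝ) ^ (2 * i + 5)) * (elo s ^ 2 * s) := by
          rw [hC]
          field_simp
          ring
      _ ≤ C * (B : ℝ) ^ (2 * i + 5) := mul_le_of_le_one_right (by positivity) h5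

theorem asym3_one {B n C D ρ : ℝ} {i : ℕ} (hi : i < 100) (e1 : 1 ≤ B) (hn0 : 0 < n) (hC0 : 0 < C)
    (hD : 0 < D) (hρ0 : 0 ≤ ρ) (h2 : B ^ 100 ≤ D * n) (e5 : C * D ^ 3 ≤ B)
    (hρ : ρ ^ 2 * n ^ 3 ≤ C * B ^ (2 * i + 5)) : ρ ≤ 1 := by
  have hB0 : 0 < B := by linarith
  have a1 : B ^ (2 * i + 5) ≤ B ^ 203 := pow_le_pow_right₀ e1 (by omega)
  have a2 : (B ^ 100) ^ 3 ≤ (D * n) ^ 3 := pow_le_pow_left₀ (by positivity) h2 3
  have a3 : C * D ^ 3 ≤ B ^ 97 := e5.trans (le_self_pow₀ e1 (by norm_num))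
  have a4 : C * D ^ 3 * B ^ 203 ≤ B ^ 97 * B ^ 203 :=
    mul_le_mul_of_nonneg_right a3 (by positivity)
  have a5 : B ^ 97 * B ^ 203 = (B ^ 100) ^ 3 := by ring
  have a6 : D ^ 3 * (C * B ^ 203) ≤ D ^ 3 * n ^ 3 := by
    calc D ^ 3 * (C * B ^ 203) = C * D ^ 3 * B ^ 203 := by ring
      _ ≤ (D * n) ^ 3 := a4.trans (a5.le.trans a2)
      _ = D ^ 3 * n ^ 3 := by ring
  have a7 := le_of_mul_le_mul_left a6 (pow_pos hD 3)
  have a8 : ρ ^ 2 * n ^ 3 ≤ 1 * n ^ 3 := by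
    rw [one_mul]
    exact hρ.trans ((mul_le_mul_of_nonneg_left a1 hC0.le).trans a7)
  have a9 := le_of_mul_le_mul_right a8 (pow_pos hn0 3)
  exact (pow_le_one_iff_of_nonneg hρ0 two_ne_zero).1 a9

theorem asym3_key {B n C D ρ η m : ℝ} {i : ℕ} (e1 : 1 ≤ B) (hn0 : 0 < n) (hC0 : 0 < C)
    (hD : 0 < D) (hρ0 : 0 ≤ ρ) (hη0 : 0 < η) (hm0 : 0 ≤ m) (h2 : B ^ 100 ≤ D * n)
    (e6 : C ^ 7 * D / η ≤ B) (hm3 : m * B ^ i ≤ n)
    (hρ : ρ ^ 2 * n ^ 3 ≤ C * B ^ (2 * i + 5)) : m ^ 20 * ρ ^ 14 ≤ η := by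
  have hB0 : 0 < B := by linarith
  have hBi : 1 ≤ B ^ i := one_le_pow₀ e1
  have a1 : (ρ ^ 2 * n ^ 3) ^ 7 ≤ (C * B ^ (2 * i + 5)) ^ 7 :=
    pow_le_pow_left₀ (by positivity) hρ 7
  have a2 : (m * B ^ i) ^ 20 ≤ n ^ 20 :=
    pow_le_pow_left₀ (by positivity) hm3 20
  have a3 := mul_le_mul a2 a1 (by positivity) (by positivity)
  have a4 : C ^ 7 * D ≤ η * B ^ 65 := by
    rw [div_le_iff₀ hη0] at e6
    have := mul_le_mul_of_nonneg_left (le_self_pow₀ e1 (by norm_num : 65 ≠ 0)) hη0.le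
    linarith
  have a5 : D * (C ^ 7 * B ^ 35) ≤ D * (η * n) := by
    calc D * (C ^ 7 * B ^ 35) = C ^ 7 * D * B ^ 35 := by ring
      _ ≤ η * B ^ 65 * B ^ 35 := mul_le_mul_of_nonneg_right a4 (by positivity)
      _ = η * B ^ 100 := by ring
      _ ≤ η * (D * n) := mul_le_mul_of_nonneg_left h2 hη0.le
      _ = D * (η * n) := by ring
  have a6 := le_of_mul_le_mul_left a5 hD
  have a7 : (B ^ i) ^ 14 ≤ (B ^ i) ^ 20 := pow_le_pow_right₀ hBi (by norm_num)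
  have hP : (0 : ℝ) < (B ^ i) ^ 20 * n ^ 21 := by positivity
  refine le_of_mul_le_mul_right ?_ hP
  calc m ^ 20 * ρ ^ 14 * ((B ^ i) ^ 20 * n ^ 21)
      = (m * B ^ i) ^ 20 * (ρ ^ 2 * n ^ 3) ^ 7 := by ring
    _ ≤ n ^ 20 * (C * B ^ (2 * i + 5)) ^ 7 := a3
    _ = (C ^ 7 * B ^ 35) * ((B ^ i) ^ 14 * n ^ 20) := by ring
    _ ≤ (η * n) * ((B ^ i) ^ 20 * n ^ 20) :=
        mul_le_mul a6 (mul_le_mul_of_nonneg_right a7 (by positivity)) (by positivity)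
          (by positivity)
    _ = η * ((B ^ i) ^ 20 * n ^ 21) := by ring

theorem asym3_fin {m ρ η : ℝ} {K n g e : ℕ} (hm0 : 0 ≤ m) (hρ0 : 0 ≤ ρ) (hρ1 : ρ ≤ 1)
    (hη : η = (1 / 64) ^ (20 * K)) (hkey : m ^ 20 * ρ ^ 14 ≤ η) (he1 : 14 * g ≤ 20 * e)
    (hnK : n ≤ K * g) : m ^ g * 8 ^ n * ρ ^ e ≤ (1 / 8) ^ n := by
  have hfin : (m ^ g * ρ ^ e) ^ 20 ≤ ((1 / 64 : ℝ) ^ n) ^ 20 := by
    calc (m ^ g * ρ ^ e) ^ 20 = (m ^ 20) ^ g * ρ ^ (20 * e) := by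
          rw [mul_pow, ← pow_mul, ← pow_mul, ← pow_mul, mul_comm g 20, mul_comm e 20]
      _ ≤ (m ^ 20) ^ g * ρ ^ (14 * g) :=
          mul_le_mul_of_nonneg_left (pow_le_pow_of_le_one hρ0 hρ1 he1) (by positivity)
      _ = (m ^ 20 * ρ ^ 14) ^ g := by rw [mul_pow, pow_mul ρ]
      _ ≤ η ^ g := pow_le_pow_left₀ (by positivity) hkey g
      _ = (1 / 64) ^ (20 * (K * g)) := by rw [hη, ← pow_mul, mul_assoc]
      _ ≤ (1 / 64) ^ (20 * n) :=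
          pow_le_pow_of_le_one (by norm_num) (by norm_num) (by omega)
      _ = ((1 / 64 : ℝ) ^ n) ^ 20 := by rw [← pow_mul, mul_comm]
  have hfin' := (pow_le_pow_iff_left₀ (by positivity) (by positivity) (by norm_num)).1 hfin
  calc m ^ g * 8 ^ n * ρ ^ e = 8 ^ n * (m ^ g * ρ ^ e) := by ring
    _ ≤ 8 ^ n * (1 / 64) ^ n := mul_le_mul_of_nonneg_left hfin' (by positivity)
    _ = (1 / 8) ^ n := by rw [← mul_pow]; norm_num

theorem asym3_core {γ D : ℝ} (hγ : 0 < γ) (hD : 0 < D) : ∀ᶠ B : ℕ in atTop, ∀ n : ℕ,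
    (n : ℝ) ≤ (B : ℝ) ^ 100 → (B : ℝ) ^ 100 ≤ D * n → ∃ s r : ℕ,
    1 ≤ s ∧ 4 ^ n * (1 / 2 : ℝ) ^ (r + 1).choose 2 ≤ (1 / 8) ^ n ∧
    ∀ i < 100, ∀ g : ℕ, γ * n ≤ g → g ≤ n → emB (8 * B ^ (i + 1)) B s ≤ 1 ∧
      2 * B * s + g / (4 * B ^ i) + r ≤ g ∧
      ((g / (4 * B ^ i) : ℕ) : ℝ) ^ g * 8 ^ n *
        emB (8 * B ^ (i + 1)) B s ^ (g - g / (4 * B ^ i) - r - 2 * B * s) ≤ (1 / 8) ^ n := by
  obtain ⟨C, hC⟩ : ∃ C : ℝ, C = 256 * 400 ^ 3 / γ ^ 3 := ⟨_, rfl⟩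
  have hC0 : 0 < C := by rw [hC]; positivity
  obtain ⟨K, hK⟩ := exists_nat_ge (1 / γ)
  have hK' : 1 ≤ (K : ℝ) * γ := by rwa [div_le_iff₀ hγ] at hK
  obtain ⟨η, hη⟩ : ∃ η : ℝ, η = (1 / 64) ^ (20 * K) := ⟨_, rfl⟩
  have hη0 : 0 < η := by rw [hη]; positivity
  have hn : Tendsto (fun n : ℕ => (n : ℝ)) atTop atTop := tendsto_natCast_atTop_atTop
  have E4 : ∀ᶠ B : ℕ in atTop, (B : ℝ) ^ 300 * (1 / 4) ^ B ≤ C :=
    (tendsto_pow_const_mul_const_pow_of_abs_lt_one 300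
      (by rw [abs_of_pos] <;> norm_num : |(1 / 4 : ℝ)| < 1)).eventually_le_const hC0
  filter_upwards [hn.eventually_ge_atTop 1, hn.eventually_ge_atTop (200 * D / γ),
    hn.eventually_ge_atTop (D * (400000 / γ ^ 2)), E4, hn.eventually_ge_atTop (C * D ^ 3),
    hn.eventually_ge_atTop (C ^ 7 * D / η)] with B e1 e2 e3 e4 e5 e6 n h1 h2
  have hB0 : (0 : ℝ) < B := by linarith
  have hpw : ∀ k : ℕ, k ≠ 0 → (B : ℝ) ≤ (B : ℝ) ^ k := fun k hk => le_self_pow₀ e1 hk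
  have hn0 : (0 : ℝ) < n := by
    have : (0 : ℝ) < D * n := lt_of_lt_of_le (by positivity) h2
    exact (mul_pos_iff_of_pos_left hD).1 this
  have hy : 200 * (B : ℝ) ≤ γ * n := by
    have a1 : 200 * D ≤ γ * (B : ℝ) ^ 99 := by
      rw [div_le_iff₀ hγ] at e2
      have := mul_le_mul_of_nonneg_left (hpw 99 (by norm_num)) hγ.le
      linarith
    have a2 : 200 * D * B ≤ γ * (B : ℝ) ^ 99 * B := mul_le_mul_of_nonneg_right a1 hB0.le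
    have a3 : γ * (B : ℝ) ^ 99 * B = γ * (B : ℝ) ^ 100 := by ring
    have a4 : γ * (B : ℝ) ^ 100 ≤ γ * (D * n) := mul_le_mul_of_nonneg_left h2 hγ.le
    have a5 : D * (200 * B) ≤ D * (γ * n) := by linarith
    exact le_of_mul_le_mul_left a5 hD
  have hbig : 400000 ≤ γ ^ 2 * n := by
    have a1 : D * (400000 / γ ^ 2) ≤ D * n := e3.trans ((hpw 100 (by norm_num)).trans h2)
    have a2 := le_of_mul_le_mul_left a1 hD
    rw [div_le_iff₀ (by positivity)] at a2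
    linarith
  obtain ⟨s, hs⟩ : ∃ s, s = ⌊γ * n / (200 * B)⌋₊ := ⟨_, rfl⟩
  obtain ⟨r, hr⟩ : ∃ r, r = ⌊γ * n / 100⌋₊ := ⟨_, rfl⟩
  have hy1 : 1 ≤ γ * n / (200 * B) := by rw [le_div_iff₀ (by positivity)]; linarith
  have hs1 : (s : ℝ) ≤ γ * n / (200 * B) := hs ▸ Nat.floor_le (by positivity)
  have hs2 : γ * n / (400 * B) ≤ s := by
    have := asym3_floor hy1
    rw [← hs] at this
    refine le_trans (le_of_eq ?_) this
    field_simp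
    ring
  have hs3 : 2 * (B : ℝ) * s ≤ γ * n / 100 := by
    rw [le_div_iff₀ (by positivity)] at hs1
    linarith
  have hr1 : (r : ℝ) ≤ γ * n / 100 := hr ▸ Nat.floor_le (by positivity)
  have hr2 : γ * n / 200 ≤ r := by
    have := asym3_floor (y := γ * n / 100) (by linarith)
    rw [← hr] at this
    linarith
  refine ⟨s, r, hs ▸ Nat.le_floor (by exact_mod_cast hy1), ?_, fun i hi g hg1 hg2 => ?_⟩
  · have hch : 5 * n ≤ (r + 1).choose 2 := by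
      have h3 : (((r + 1).choose 2 : ℕ) : ℝ) = ((r : ℝ) + 1) * r / 2 := by
        rw [Nat.cast_choose_two]
        push_cast
        ring
      have h4 : (γ * n / 200) ^ 2 ≤ (r : ℝ) ^ 2 := pow_le_pow_left₀ (by positivity) hr2 2
      have h5 : 400000 * (n : ℝ) ≤ γ ^ 2 * n * n := mul_le_mul_of_nonneg_right hbig hn0.le
      have h6 : (0 : ℝ) ≤ r := Nat.cast_nonneg r
      have h7 : (5 : ℝ) * n ≤ (((r + 1).choose 2 : ℕ) : ℝ) := by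
        rw [h3]
        linarith only [h4, h5, h6]
      exact_mod_cast h7
    have A2 : (1 / 2 : ℝ) ^ (r + 1).choose 2 ≤ (1 / 32) ^ n := by
      calc (1 / 2 : ℝ) ^ (r + 1).choose 2 ≤ (1 / 2) ^ (5 * n) :=
            pow_le_pow_of_le_one (by norm_num) (by norm_num) hch
        _ = (1 / 32) ^ n := by rw [pow_mul]; norm_num
    calc (4 : ℝ) ^ n * (1 / 2 : ℝ) ^ (r + 1).choose 2 ≤ 4 ^ n * (1 / 32) ^ n :=
          mul_le_mul_of_nonneg_left A2 (by positivity)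
      _ = (1 / 8) ^ n := by rw [← mul_pow]; norm_num
  · have hρ := asym3_rho hγ hC B n s i e1 hn0 h1 hs2 e4
    obtain ⟨ρ, hρd⟩ : ∃ ρ, ρ = emB (8 * B ^ (i + 1)) B s := ⟨_, rfl⟩
    have hρ0 : 0 ≤ ρ := by
      rw [hρd]
      exact le_max_of_le_left (by positivity)
    obtain ⟨m, hm⟩ : ∃ m, m = g / (4 * B ^ i) := ⟨_, rfl⟩
    rw [← hρd] at hρ
    rw [← hρd, ← hm]
    have hBi : (1 : ℝ) ≤ (B : ℝ) ^ i := one_le_pow₀ e1
    have hm1 : (m : ℝ) * (4 * (B : ℝ) ^ i) ≤ g := by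
      have := Nat.div_mul_le_self g (4 * B ^ i)
      rw [← hm] at this
      exact_mod_cast this
    have hm0 : (0 : ℝ) ≤ m := Nat.cast_nonneg m
    have hg2' : (g : ℝ) ≤ n := by exact_mod_cast hg2
    have hm4 : (m : ℝ) ≤ m * (B : ℝ) ^ i := le_mul_of_one_le_right hm0 hBi
    have hm5 : (m : ℝ) * (4 * (B : ℝ) ^ i) = 4 * (m * (B : ℝ) ^ i) := by ring
    have hm2 : 4 * (m : ℝ) ≤ g := by linarith only [hm1, hm4, hm5]
    have hm3 : (m : ℝ) * (B : ℝ) ^ i ≤ n := by linarith only [hm1, hm4, hm5, hm0, hg2']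
    have hsum : 100 * (2 * B * s + m + r) ≤ 27 * g := by
      have : 100 * (2 * (B : ℝ) * s + m + r) ≤ 27 * g := by linarith only [hs3, hm2, hr1, hg1]
      exact_mod_cast this
    have hρ1 : ρ ≤ 1 := asym3_one hi e1 hn0 hC0 hD hρ0 h2 e5 hρ
    refine ⟨hρ1, by omega, ?_⟩
    have hkey := asym3_key e1 hn0 hC0 hD hρ0 hη0 hm0 h2 e6 hm3 hρ
    obtain ⟨e, he⟩ : ∃ e, e = g - m - r - 2 * B * s := ⟨_, rfl⟩
    rw [← he]
    have he1 : 14 * g ≤ 20 * e := by omega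
    have hnK : n ≤ K * g := by
      have : (n : ℝ) ≤ K * g := by
        have a1 := mul_le_mul_of_nonneg_left hg1 (Nat.cast_nonneg (α := ℝ) K)
        have a2 := mul_le_mul_of_nonneg_right hK' hn0.le
        linarith only [a1, a2]
      exact_mod_cast this
    exact asym3_fin hm0 hρ0 hρ1 hη hkey he1 hnK

theorem asym3 {γ : ℝ} (hγ : 0 < γ) : ∀ᶠ n : ℕ in atTop, ∃ B s r : ℕ, 2 ≤ B ∧ n < 8 * B ^ 100 ∧
    1 ≤ s ∧ 4 ^ n * (1 / 2 : ℝ) ^ (r + 1).choose 2 ≤ (1 / 8) ^ n ∧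
    ∀ i < 100, ∀ g : ℕ, γ * n ≤ g → g ≤ n → emB (8 * B ^ (i + 1)) B s ≤ 1 ∧
      2 * B * s + g / (4 * B ^ i) + r ≤ g ∧
      ((g / (4 * B ^ i) : ℕ) : ℝ) ^ g * 8 ^ n *
        emB (8 * B ^ (i + 1)) B s ^ (g - g / (4 * B ^ i) - r - 2 * B * s) ≤ (1 / 8) ^ n := by
  obtain ⟨K, hK⟩ := eventually_atTop.1 (asym3_core hγ (D := 2 ^ 100) (by positivity))
  filter_upwards [eventually_gt_atTop ((K + 1) ^ 100)] with n hn
  have hex : ∃ B : ℕ, n ≤ B ^ 100 := ⟨n, Nat.le_self_pow (by norm_num) n⟩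
  obtain ⟨B, hB1, hB2⟩ : ∃ B : ℕ, n ≤ B ^ 100 ∧ ∀ b < B, b ^ 100 < n :=
    ⟨Nat.find hex, Nat.find_spec hex, fun b hb => not_le.1 (Nat.find_min hex hb)⟩
  have hKB : K + 1 < B := lt_of_pow_lt_pow_left₀ 100 (Nat.zero_le _) (hn.trans_le hB1)
  have h2 : B ^ 100 ≤ 2 ^ 100 * n := by
    have a1 := hB2 (B - 1) (by omega)
    calc B ^ 100 ≤ (2 * (B - 1)) ^ 100 := Nat.pow_le_pow_left (by omega) 100
      _ = 2 ^ 100 * (B - 1) ^ 100 := mul_pow _ _ _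
      _ ≤ 2 ^ 100 * n := Nat.mul_le_mul_left _ a1.le
  obtain ⟨s, r, h⟩ := hK B (by omega) n (by exact_mod_cast hB1) (by exact_mod_cast h2)
  have hpos : 0 < B ^ 100 := pow_pos (by omega) 100
  exact ⟨B, s, r, by omega, by omega, h⟩

end Vale.Agent.P160
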