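import Vale.Agent.P160.Elo

namespace Vale.Agent.P160

open Finset Filter

open Classical in
theorem band_sperner {ι : Type*} (T : Finset ι) (A : Finset (Finset ι)) (hA : ∀ η ∈ A, η ⊆ T)
    (anti : ∀ a ∈ A, ∀ b ∈ A, a ⊆ b → a = b) : A.card ≤ T.card.choose (T.card / 2) := by
  have key : ∀ a ∈ A, ∀ b ∈ A, a.subtype (· ∈ T) ⊆ b.subtype (· ∈ T) → a = b := by
    intro a ha b hb h
    refine anti a ha b hb fun j hj => ?_
    exact mem_subtype.1 (h (mem_subtype.2 hj : (⟨j, hA a ha hj⟩ : {j // j ∈ T}) ∈ _))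
  have hinj : Set.InjOn (fun η : Finset ι => η.subtype (· ∈ T)) A :=
    fun a ha b hb h => key a ha b hb (le_of_eq h)
  rw [← card_image_of_injOn hinj, ← Fintype.card_coe T]
  apply IsAntichain.sperner
  intro a ha b hb hne hsub
  obtain ⟨η, hη, rfl⟩ := mem_image.1 (mem_coe.1 ha)
  obtain ⟨η', hη', rfl⟩ := mem_image.1 (mem_coe.1 hb)
  exact hne (by rw [key η hη η' hη' hsub])

open Classical in
theorem band_half {ι : Type*} (T : Finset ι) (w : ι → ℝ) {x : ℝ} (hx : 0 < x)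
    (hw : ∀ j ∈ T, x ≤ w j ∧ w j < 2 * x) (μ : ℕ)
    (hμ : ∀ a, (T.filter fun i => w i = a).card ≤ μ) (c : ℝ) :
    ∑ η ∈ T.powerset.filter (fun η => ∑ j ∈ η, w j = c), η.card ≤
      μ * T.card.choose (T.card / 2) := by
  set B := T.powerset.filter fun ζ => c - 2 * x < ∑ j ∈ ζ, w j ∧ ∑ j ∈ ζ, w j ≤ c - x with hB
  have hBc : B.card ≤ T.card.choose (T.card / 2) := by
    refine band_sperner T B (fun η hη => mem_powerset.1 (mem_filter.1 hη).1) fun a ha b hb hab => ?_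
    by_contra hne
    obtain ⟨j, hj1, hj2⟩ := exists_of_ssubset (ssubset_of_subset_of_ne hab hne)
    have hbT := mem_powerset.1 (mem_filter.1 hb).1
    have h1 : ∑ i ∈ insert j a, w i ≤ ∑ i ∈ b, w i :=
      sum_le_sum_of_subset_of_nonneg (insert_subset hj1 hab)
        fun i hi _ => hx.le.trans (hw i (hbT hi)).1
    rw [sum_insert hj2] at h1
    linarith [(mem_filter.1 ha).2.1, (mem_filter.1 hb).2.2, (hw j (hbT hj1)).1]
  rw [← card_sigma]
  refine le_trans (card_le_mul_card_image_of_maps_to (t := B)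
    (f := fun p : (_ : Finset ι) × ι => p.1.erase p.2) (fun p hp => ?_) μ fun ζ _ => ?_)
    (Nat.mul_le_mul_left _ hBc)
  · obtain ⟨h1, h2⟩ := mem_sigma.1 hp
    obtain ⟨h3, h4⟩ := mem_filter.1 h1
    have h5 := mem_powerset.1 h3
    have h6 := add_sum_erase p.1 w h2
    have h7 := hw _ (h5 h2)
    exact mem_filter.2 ⟨mem_powerset.2 ((erase_subset _ _).trans h5), by linarith [h7.2],
      by linarith [h7.1]⟩
  · refine le_trans (card_le_card_of_injOn (fun p => p.2) (fun p hp => ?_) ?_)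
      (hμ (c - ∑ j ∈ ζ, w j))
    · obtain ⟨h0, h8⟩ := mem_filter.1 (mem_coe.1 hp)
      obtain ⟨h1, h2⟩ := mem_sigma.1 h0
      obtain ⟨h3, h4⟩ := mem_filter.1 h1
      have h6 := add_sum_erase p.1 w h2
      refine mem_coe.2 (mem_filter.2 ⟨mem_powerset.1 h3 h2, ?_⟩)
      rw [← h8]
      linarith
    · rintro ⟨η, j⟩ hp ⟨η', j'⟩ hp' h
      obtain ⟨h0, h8⟩ := mem_filter.1 (mem_coe.1 hp)
      obtain ⟨h0', h8'⟩ := mem_filter.1 (mem_coe.1 hp')
      have h2 : j ∈ η := (mem_sigma.1 h0).2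
      have h2' : j' ∈ η' := (mem_sigma.1 h0').2
      obtain rfl : j = j' := h
      have h9 : η.erase j = η'.erase j := h8.trans h8'.symm
      obtain rfl : η = η' := by rw [← insert_erase h2, h9, insert_erase h2']
      rfl

open Classical in
theorem em_band {ι : Type*} (T : Finset ι) (w : ι → ℝ) {x : ℝ} (hx : 0 < x)
    (hw : ∀ j ∈ T, x ≤ w j ∧ w j < 2 * x) (μ : ℕ)
    (hμ : ∀ a, (T.filter fun i => w i = a).card ≤ μ) (c : ℝ) :
    T.card * (T.powerset.filter fun η => ∑ j ∈ η, w j = c).card ≤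
      2 * μ * T.card.choose (T.card / 2) := by
  have h1 := band_half T w hx hw μ hμ c
  have h2 := band_half T w hx hw μ hμ (∑ j ∈ T, w j - c)
  set F := T.powerset.filter fun η => ∑ j ∈ η, w j = c with hF
  have hFT : ∀ η ∈ F, η ⊆ T := fun η hη => mem_powerset.1 (mem_filter.1 hη).1
  have h3 : ∑ η ∈ F, (T \ η).card ≤
      ∑ η ∈ T.powerset.filter (fun η => ∑ j ∈ η, w j = ∑ j ∈ T, w j - c), η.card := by
    rw [← sum_image (s := F) (g := fun η => T \ η) (f := fun ζ => ζ.card)]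
    · refine sum_le_sum_of_subset fun ζ hζ => ?_
      obtain ⟨η, hη, rfl⟩ := mem_image.1 hζ
      refine mem_filter.2 ⟨mem_powerset.2 sdiff_subset, ?_⟩
      rw [← (mem_filter.1 hη).2, ← sum_sdiff (hFT η hη)]
      ring
    · intro a ha b hb h
      have h4 : T \ a = T \ b := h
      rw [← Finset.sdiff_sdiff_eq_self (hFT a ha), h4, Finset.sdiff_sdiff_eq_self (hFT b hb)]
  have h4 : T.card * F.card = ∑ η ∈ F, η.card + ∑ η ∈ F, (T \ η).card := by
    rw [← sum_add_distrib, mul_comm, ← smul_eq_mul, ← sum_const]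
    refine sum_congr rfl fun η hη => ?_
    rw [add_comm, card_sdiff_add_card_eq_card (hFT η hη)]
  rw [h4, mul_assoc, two_mul]
  exact add_le_add h1 (h3.trans h2)

end Vale.Agent.P160
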