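import Vale.Agent.P160.Elo

namespace Vale.Agent.P160

open Finset Filter

theorem lac_sum {ι : Type*} (w : ι → ℝ) (A : Finset ι) : (∀ j ∈ A, 0 < w j) →
    (∀ i ∈ A, ∀ j ∈ A, i ≠ j → 2 * w i < w j ∨ 2 * w j < w i) →
    ∀ M : ℝ, 0 < M → (∀ j ∈ A, 2 * w j < M) → ∑ j ∈ A, w j < M := by
  classical
  induction A using Finset.induction_on_max_value w with
  | empty => intro _ _ M hM _; simpa using hM
  | insert a s ha hmax ih =>
    intro hw h M _ hA
    have h0 := hw a (mem_insert_self _ _)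
    have h1 := ih (fun j hj => hw j (mem_insert_of_mem hj))
      (fun i hi j hj => h i (mem_insert_of_mem hi) j (mem_insert_of_mem hj)) (w a) h0 fun j hj => by
        rcases h j (mem_insert_of_mem hj) a (mem_insert_self _ _) (fun e => ha (e ▸ hj)) with h2 | h2
        · exact h2
        · linarith [hmax j hj]
    rw [sum_insert ha]
    linarith [hA a (mem_insert_self _ _)]

open Classical in
theorem em_lac {ι : Type*} (T : Finset ι) (w : ι → ℝ) (hw : ∀ j ∈ T, 0 < w j)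
    (h : ∀ i ∈ T, ∀ j ∈ T, i ≠ j → 2 * w i < w j ∨ 2 * w j < w i) (c : ℝ) :
    (T.powerset.filter fun η => ∑ j ∈ η, w j = c).card ≤ 1 := by
  have key : ∀ η η' : Finset ι, η ⊆ T → η' ⊆ T → ∀ a ∈ η \ η', (∀ j ∈ η' \ η, w j ≤ w a) →
      ∑ j ∈ η', w j < ∑ j ∈ η, w j := by
    intro η η' h1 h2 a ha hmax
    have haT := h1 (mem_sdiff.1 ha).1
    have h3 := lac_sum w (η' \ η) (fun j hj => hw j (h2 (mem_sdiff.1 hj).1))
      (fun i hi j hj => h i (h2 (mem_sdiff.1 hi).1) j (h2 (mem_sdiff.1 hj).1)) (w a) (hw a haT)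
      fun j hj => by
        rcases h j (h2 (mem_sdiff.1 hj).1) a haT
          (fun e => (mem_sdiff.1 hj).2 (e ▸ (mem_sdiff.1 ha).1)) with h4 | h4
        · exact h4
        · linarith [hmax j hj, hw a haT]
    have h4 : w a ≤ ∑ j ∈ η \ η', w j :=
      single_le_sum (fun j hj => (hw j (h1 (mem_sdiff.1 hj).1)).le) ha
    have h5 := sum_sdiff_sub_sum_sdiff (s₁ := η) (s₂ := η') (f := w)
    linarith
  refine card_le_one.2 fun η hη η' hη' => ?_
  obtain ⟨h1, e1⟩ := mem_filter.1 hη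
  obtain ⟨h2, e2⟩ := mem_filter.1 hη'
  rw [mem_powerset] at h1 h2
  by_contra hne
  have hD : (η \ η' ∪ η' \ η).Nonempty := by
    by_contra h0
    rw [not_nonempty_iff_eq_empty, union_eq_empty, sdiff_eq_empty_iff_subset,
      sdiff_eq_empty_iff_subset] at h0
    exact hne (Subset.antisymm h0.1 h0.2)
  obtain ⟨a, ha, hmax⟩ := exists_max_image _ w hD
  rcases mem_union.1 ha with ha | ha
  · have := key η η' h1 h2 a ha fun j hj => hmax j (mem_union_right _ hj)
    linarith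
  · have := key η' η h2 h1 a ha fun j hj => hmax j (mem_union_left _ hj)
    linarith

theorem em_pick {ι : Type*} (T : Finset ι) (w : ι → ℝ) (hw : ∀ j ∈ T, 0 < w j) (L s : ℕ)
    (h : 2 * L * s ≤ T.card) :
    (∃ T' ⊆ T, T'.card = s ∧ ∃ x : ℝ, 0 < x ∧ ∀ j ∈ T', x ≤ w j ∧ w j < 2 * x) ∨
      ∃ T' ⊆ T, T'.card = L ∧ ∀ i ∈ T', ∀ j ∈ T', i ≠ j → 2 * w i < w j ∨ 2 * w j < w i := by
  classical
  set cl : ι → ℤ := fun j => Int.log 2 (w j) with hcl
  have b1 : ∀ j ∈ T, (2 : ℝ) ^ cl j ≤ w j := fun j hj => by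
    exact_mod_cast Int.zpow_log_le_self (b := 2) (by norm_num) (hw j hj)
  have b2 : ∀ j, w j < 2 * (2 : ℝ) ^ cl j := fun j => by
    have := Int.lt_zpow_succ_log_self (b := 2) (by norm_num) (w j)
    rw [zpow_add_one₀ (by norm_num), mul_comm] at this
    exact_mod_cast this
  by_cases hc : ∃ c, s ≤ (T.filter fun j => cl j = c).card
  · obtain ⟨c, hc⟩ := hc
    obtain ⟨T', h1, h2⟩ := exists_subset_card_eq hc
    refine Or.inl ⟨T', h1.trans (filter_subset _ _), h2, 2 ^ c, by positivity, fun j hj => ?_⟩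
    obtain ⟨h3, rfl⟩ := mem_filter.1 (h1 hj)
    exact ⟨b1 j h3, b2 j⟩
  push Not at hc
  have hs : 0 < s := (Nat.zero_le _).trans_lt (hc 0)
  have h1 : T.card ≤ s * (T.image cl).card :=
    card_le_mul_card_image T s fun c _ => (hc c).le
  have h2 : 2 * L ≤ (T.image cl).card := by
    refine Nat.le_of_mul_le_mul_right (h.trans ?_) hs
    rwa [mul_comm]
  obtain ⟨p, hp⟩ : ∃ p : ℤ, L ≤ ((T.image cl).filter fun c => c % 2 = p).card := by
    have e := card_filter_add_card_filter_not (s := T.image cl) fun c => c % 2 = 0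
    have e2 : ((T.image cl).filter fun c => ¬ c % 2 = 0) =
        (T.image cl).filter fun c => c % 2 = 1 := filter_congr fun c _ => by omega
    rw [e2] at e
    by_contra hn
    push Not at hn
    have := hn 0
    have := hn 1
    omega
  obtain ⟨J, hJ, hJc⟩ := exists_subset_card_eq hp
  have hex : ∀ c ∈ J, ∃ j ∈ T, cl j = c := fun c hc => mem_image.1 (mem_filter.1 (hJ hc)).1
  choose f hf1 hf2 using hex
  refine Or.inr ⟨J.attach.image fun c => f c.1 c.2, ?_, ?_, ?_⟩
  · intro j hj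
    obtain ⟨c, _, rfl⟩ := mem_image.1 hj
    exact hf1 _ _
  · rw [card_image_of_injective, card_attach, hJc]
    intro c c' e
    exact Subtype.ext (by rw [← hf2 c.1 c.2, ← hf2 c'.1 c'.2]; exact congrArg cl e)
  · have main : ∀ i, ∀ j ∈ T, cl i + 2 ≤ cl j → 2 * w i < w j := fun i j hj hij => by
      have h3 : (2 : ℝ) ^ (cl i + 2) ≤ 2 ^ cl j := zpow_le_zpow_right₀ (by norm_num) hij
      rw [zpow_add₀ (by norm_num)] at h3
      norm_num at h3
      linarith [b1 j hj, b2 i]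
    intro i hi j hj hij
    obtain ⟨c, _, rfl⟩ := mem_image.1 hi
    obtain ⟨c', _, rfl⟩ := mem_image.1 hj
    have h3 : c.1 ≠ c'.1 := fun e => hij (by rw [Subtype.ext e])
    have h4 := (mem_filter.1 (hJ c.2)).2
    have h5 := (mem_filter.1 (hJ c'.2)).2
    rcases lt_or_gt_of_ne h3 with h6 | h6
    · exact Or.inl (main _ _ (hf1 _ _) (by rw [hf2, hf2]; omega))
    · exact Or.inr (main _ _ (hf1 _ _) (by rw [hf2, hf2]; omega))

end Vale.Agent.P160
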