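import Vale.Agent.P160L.Band
import Vale.Agent.P160L.Lac

namespace Vale.Agent.P160

open Finset Filter

open Classical in
/-- nonzero on `T`, absolute values repeated at most `μ` times -/
def GoodM {ι : Type*} (T : Finset ι) (μ : ℕ) (v : ι → ℝ) : Prop :=
  (∀ j ∈ T, v j ≠ 0) ∧ ∀ j ∈ T, (T.filter fun i => |v i| = |v j|).card ≤ μ

/-- the Erdős–Moser type bound -/
noncomputable def emB (μ L s : ℕ) : ℝ := max ((1 / 2) ^ L) (2 * μ * elo s / s)

open Classical in
theorem em_abs {ι : Type*} (T : Finset ι) (w : ι → ℝ) (c : ℝ) :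
    (T.powerset.filter fun η => ∑ j ∈ η, w j = c).card ≤
      (T.powerset.filter fun η => ∑ j ∈ η, |w j| = c - ∑ j ∈ T.filter (fun j => w j < 0), w j).card := by
  set N := T.filter fun j => w j < 0 with hN
  refine card_le_card_of_injOn (fun η => symmDiff η N) (fun η hη => ?_)
    fun η _ η' _ h => symmDiff_left_injective N h
  obtain ⟨h1, h2⟩ := mem_filter.1 (mem_coe.1 hη)
  have hsub := mem_powerset.1 h1
  have hsub' : symmDiff η N ⊆ T := fun j hj => by
    rcases mem_symmDiff.1 hj with h | h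
    · exact hsub h.1
    · exact (mem_filter.1 h.1).1
  refine mem_coe.2 (mem_filter.2 ⟨mem_powerset.2 hsub', ?_⟩)
  have e : ∀ (S : Finset ι) (f : ι → ℝ), S ⊆ T → ∑ j ∈ S, f j = ∑ j ∈ T, if j ∈ S then f j else 0 :=
    fun S f hS => by rw [sum_ite_mem, inter_eq_right.2 hS]
  rw [← h2, e _ _ hsub', e η _ hsub, e N _ (filter_subset _ _), ← sum_sub_distrib]
  refine sum_congr rfl fun j hj => ?_
  have hm : j ∈ N ↔ w j < 0 := by simp [hN, hj]
  by_cases a : j ∈ η <;> by_cases b : w j < 0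
  · simp [mem_symmDiff, a, hm, b]
  · simp [mem_symmDiff, a, hm, b, abs_of_nonneg (not_lt.1 b)]
  · simp [mem_symmDiff, a, hm, b, abs_of_neg b]
  · simp [mem_symmDiff, a, hm, b]

open Classical in
theorem em_cond {ι : Type*} {T T' : Finset ι} (hT : T' ⊆ T) (w : ι → ℝ) (B : ℝ)
    (hB : ∀ c, ((T'.powerset.filter fun η => ∑ j ∈ η, w j = c).card : ℝ) ≤ B * 2 ^ T'.card)
    (c : ℝ) : ((T.powerset.filter fun η => ∑ j ∈ η, w j = c).card : ℝ) ≤ B * 2 ^ T.card := by
  set F := T.powerset.filter fun η => ∑ j ∈ η, w j = c with hF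
  have hmap : ∀ η ∈ F, η \ T' ∈ (T \ T').powerset := fun η hη =>
    mem_powerset.2 (sdiff_subset_sdiff (mem_powerset.1 (mem_filter.1 hη).1) le_rfl)
  rw [card_eq_sum_card_fiberwise hmap]
  push_cast
  have hfib : ∀ ζ ∈ (T \ T').powerset,
      ((F.filter fun η => η \ T' = ζ).card : ℝ) ≤ B * 2 ^ T'.card := fun ζ _ => by
    refine le_trans ?_ (hB (c - ∑ j ∈ ζ, w j))
    refine Nat.cast_le.2 (card_le_card_of_injOn (fun η => η ∩ T') (fun η hη => ?_)
      fun η hη η' hη' h => ?_)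
    · obtain ⟨h1, h2⟩ := mem_filter.1 (mem_coe.1 hη)
      refine mem_coe.2 (mem_filter.2 ⟨mem_powerset.2 inter_subset_right, ?_⟩)
      have h3 := sum_inter_add_sum_sdiff η T' w
      rw [h2, (mem_filter.1 h1).2] at h3
      linarith
    · have h1 := (mem_filter.1 (mem_coe.1 hη)).2
      have h2 := (mem_filter.1 (mem_coe.1 hη')).2
      have h3 : η ∩ T' = η' ∩ T' := h
      rw [← sdiff_union_inter η T', ← sdiff_union_inter η' T', h1, h2, h3]
  refine (sum_le_card_nsmul _ _ _ hfib).trans (le_of_eq ?_)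
  rw [card_powerset, nsmul_eq_mul, ← card_sdiff_add_card_eq_card hT, pow_add]
  push_cast
  ring

open Classical in
theorem em {ι : Type*} (T : Finset ι) (w : ι → ℝ) (μ L s : ℕ) (hs : 1 ≤ s) (hw : GoodM T μ w)
    (h : 2 * L * s ≤ T.card) (c : ℝ) :
    ((T.powerset.filter fun η => ∑ j ∈ η, w j = c).card : ℝ) ≤ emB μ L s * 2 ^ T.card := by
  have hpos : ∀ j ∈ T, 0 < |w j| := fun j hj => abs_pos.2 (hw.1 j hj)
  refine le_trans (Nat.cast_le.2 (em_abs T w c)) ?_
  rcases em_pick T (fun j => |w j|) hpos L s h with ⟨T', hT, hc, x, hx, hb⟩ | ⟨T', hT, hc, hl⟩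
  · refine em_cond hT (fun j => |w j|) _ (fun c' => ?_) _
    have hμ : ∀ a, (T'.filter fun i => |w i| = a).card ≤ μ := fun a => by
      rcases (T'.filter fun i => |w i| = a).eq_empty_or_nonempty with he | ⟨j, hj⟩
      · rw [he]; exact Nat.zero_le _
      · obtain ⟨h1, h2⟩ := mem_filter.1 hj
        refine le_trans (card_le_card fun i hi => ?_) (hw.2 j (hT h1))
        obtain ⟨h3, h4⟩ := mem_filter.1 hi
        exact mem_filter.2 ⟨hT h3, h4.trans h2.symm⟩
    have h1 := em_band T' (fun j => |w j|) hx hb μ hμ c'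
    rw [hc] at h1 ⊢
    have h2 : (s : ℝ) * ((T'.powerset.filter fun η => ∑ j ∈ η, |w j| = c').card : ℝ) ≤
        2 * μ * (s.choose (s / 2) : ℝ) := by exact_mod_cast h1
    have hs' : (0 : ℝ) < s := by exact_mod_cast hs
    refine le_trans ?_ (mul_le_mul_of_nonneg_right (le_max_right _ _) (by positivity))
    unfold elo
    rw [div_mul_eq_mul_div, le_div_iff₀ hs']
    have e : 2 * (μ : ℝ) * ((s.choose (s / 2) : ℝ) / 2 ^ s) * 2 ^ s =
        2 * μ * (s.choose (s / 2) : ℝ) := by field_simp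
    rw [e]
    linarith
  · refine em_cond hT (fun j => |w j|) _ (fun c' => ?_) _
    have h1 := em_lac T' (fun j => |w j|) (fun j hj => hpos j (hT hj)) hl c'
    have h2 : ((T'.powerset.filter fun η => ∑ j ∈ η, |w j| = c').card : ℝ) ≤ 1 := by
      exact_mod_cast h1
    refine h2.trans (le_trans (le_of_eq ?_)
      (mul_le_mul_of_nonneg_right (le_max_left _ _) (by positivity)))
    rw [hc, ← mul_pow]
    norm_num

end Vale.Agent.P160
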