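import Vale.Agent.P160L.Key2
import Vale.Agent.P160L.EM
import Vale.Agent.P160.Few2
import Vale.Agent.P160.Sparse

namespace Vale.Agent.P160

open Finset Filter

theorem finrank_split {n m : ℕ} (A : Matrix (Fin n) (Fin n) ℝ) (G : Finset (Fin n))
    (φ : G → Fin m) (W : Submodule ℝ (Fin n → ℝ))
    (hW : ∀ x ∈ W, x ∈ constOn (few2f G φ) ∧ ∀ i ∈ Gᶜ, ∑ j, A i j * x j = 0) :
    Module.finrank ℝ W ≤ m + Module.finrank ℝ (spW A Gᶜ) := by
  classical
  let ψ : (Fin n → ℝ) →ₗ[ℝ] (Fin m → ℝ) := LinearMap.pi fun a =>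
    if h : ∃ j : G, φ j = a then LinearMap.proj (h.choose : Fin n) else 0
  have h1 := (ψ.domRestrict W).finrank_range_add_finrank_ker
  have h2 : Module.finrank ℝ (LinearMap.range (ψ.domRestrict W)) ≤ m :=
    (Submodule.finrank_le _).trans (by simp)
  have h3 : Module.finrank ℝ (LinearMap.ker (ψ.domRestrict W)) ≤
      Module.finrank ℝ (spW A Gᶜ) := by
    rw [← Submodule.finrank_map_subtype_eq]
    refine Submodule.finrank_mono ?_
    rintro _ ⟨x, hx, rfl⟩
    refine ⟨fun j hj => ?_, (hW x x.2).2⟩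
    have hjG : j ∈ G := by simpa using hj
    have h : ∃ k : G, φ k = φ ⟨j, hjG⟩ := ⟨_, rfl⟩
    have h4 : ψ x (φ ⟨j, hjG⟩) = 0 := congrFun (LinearMap.mem_ker.1 hx) _
    simp only [ψ, LinearMap.pi_apply, dif_pos h, LinearMap.proj_apply] at h4
    refine Eq.trans ((hW x x.2).1 j h.choose ?_) h4
    simp only [few2f, dif_pos hjG, dif_pos h.choose.2]
    congr 2
    exact h.choose_spec.symm
  omega

theorem few3_mono {ι : Type*} {T G : Finset ι} (h : T ⊆ G) {μ : ℕ} {v w : ι → ℝ}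
    (hw : ∀ j, |w j| = |v j|) (hv : GoodM G μ v) : GoodM T μ w := by
  classical
  refine ⟨fun j hj h0 => hv.1 j (h hj) (abs_eq_zero.1 (by rw [← hw j, h0, abs_zero])),
    fun j hj => le_trans (card_le_card fun i hi => ?_) (hv.2 j (h hj))⟩
  simp only [mem_filter, hw] at hi ⊢
  exact ⟨h hi.1, hi.2⟩

open Classical in
theorem few3_bound (n g m μ L s r : ℕ) (hs : 1 ≤ s) (h1 : emB μ L s ≤ 1)
    (hg : 2 * L * s + m + r ≤ g) :
    prob n (fun A => ∃ v : Fin n → ℝ, (∀ i, ∑ j, A i j * v j = 0) ∧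
      ∃ G : Finset (Fin n), G.card = g ∧ (G.image v).card ≤ m ∧ GoodM G μ v) ≤
      (m : ℝ) ^ g * 8 ^ n * emB μ L s ^ (g - m - r - 2 * L * s) +
        4 ^ n * (1 / 2) ^ (r + 1).choose 2 := by
  have h0 : 0 ≤ emB μ L s := le_max_of_le_left (by positivity)
  let S : Finset (Finset (Fin n) × Finset (Fin n) × Finset (Fin n)) :=
    univ.filter fun a => a.1.card = g ∧ a.2.1.card = 2 * L * s ∧ a.2.2.card ≤ m + r ∧
      Disjoint (a.1ᶜ ∪ a.2.2) a.2.1
  let E : (a : Finset (Fin n) × Finset (Fin n) × Finset (Fin n)) → (a.1 → Fin m) →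
      Matrix (Fin n) (Fin n) ℝ → Prop :=
    fun a φ A => (∃ v ∈ (constOn (few2f a.1 φ) : Set (Fin n → ℝ)), GoodM a.2.1 μ v ∧
      ∀ i, ∑ j, A i j * v j = 0) ∧ ∀ x ∈ (constOn (few2f a.1 φ) : Set (Fin n → ℝ)),
        (∀ i ∈ a.1ᶜ ∪ a.2.2, ∑ j, A i j * x j = 0) → ∀ i, ∑ j, A i j * x j = 0
  have h2 : ∀ a ∈ S, prob n (fun A => ∃ φ ∈ (univ : Finset (a.1 → Fin m)), E a φ A) ≤
      (m : ℝ) ^ g * emB μ L s ^ (g - m - r - 2 * L * s) := by
    rintro ⟨G, T, Q⟩ ha
    obtain ⟨a0, a1, a2, a3⟩ := (mem_filter.1 ha).2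
    dsimp only at a0 a1 a2 a3
    refine (prob_exists _ _).trans ?_
    have hgn : g ≤ n := by
      have := card_le_univ G
      rwa [a0, Fintype.card_fin] at this
    have h3 : ∀ φ ∈ (univ : Finset (G → Fin m)),
        prob n (E (G, T, Q) φ) ≤ emB μ L s ^ (g - m - r - 2 * L * s) := by
      intro φ _
      have a4 := key2 (constOn (few2f G φ) : Set (Fin n → ℝ)) (T ∪ (Gᶜ ∪ Q))ᶜ T (Gᶜ ∪ Q)
        (disjoint_left.2 fun x hx hx' => mem_compl.1 hx (mem_union_left _ hx'))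
        (disjoint_left.2 fun x hx hx' => mem_compl.1 hx (mem_union_right _ hx')) a3 h0
        (GoodM T μ) (fun v hv w hw c =>
          em T w μ L s hs (few3_mono (Subset.refl T) hw hv) a1.ge c)
      refine a4.trans (pow_le_pow_of_le_one h0 h1 ?_)
      have a5 := card_union_le T (Gᶜ ∪ Q)
      have a6 := card_union_le Gᶜ Q
      rw [card_compl, Fintype.card_fin] at a6
      rw [card_compl, Fintype.card_fin]
      omega
    refine (sum_le_sum h3).trans (le_of_eq ?_)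
    rw [sum_const, nsmul_eq_mul, card_univ, Fintype.card_fun, Fintype.card_fin, Fintype.card_coe,
      a0, Nat.cast_pow]
  have e1 : prob n (fun A => ∃ a ∈ S, ∃ φ ∈ (univ : Finset (a.1 → Fin m)), E a φ A) ≤
      (m : ℝ) ^ g * 8 ^ n * emB μ L s ^ (g - m - r - 2 * L * s) := by
    refine (prob_exists S _).trans ((sum_le_sum h2).trans ?_)
    rw [sum_const, nsmul_eq_mul, mul_comm ((m : ℝ) ^ g) (8 ^ n), mul_assoc ((8 : ℝ) ^ n)]
    refine mul_le_mul_of_nonneg_right ?_
      (mul_nonneg (pow_nonneg (Nat.cast_nonneg m) g) (pow_nonneg h0 _))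
    have b1 : S.card ≤ 8 ^ n := by
      refine (card_le_univ S).trans (le_of_eq ?_)
      simp only [Fintype.card_prod, Fintype.card_fin, Fintype.card_finset]
      rw [← mul_pow, ← mul_pow, show (2 * (2 * 2) : ℕ) = 8 from rfl]
    exact_mod_cast b1
  have hc : ((univ : Finset (Finset (Fin n) × Finset (Fin n))).card : ℝ) = 4 ^ n := by
    rw [card_univ, Fintype.card_prod, Fintype.card_finset, Fintype.card_fin, ← mul_pow]
    simp
  have e2 := sp_union (b := (1 / 2) ^ (r + 1 + 1).choose 2) univ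
    (fun a : Finset (Fin n) × Finset (Fin n) => a.2.card = r + 1) _ (by positivity)
      fun a _ hp => hp ▸ corank a.1 a.2
  rw [hc] at e2
  refine le_trans (prob_mono ?_) ((prob_or _ _).trans (add_le_add e1 (e2.trans ?_)))
  · rintro ω ⟨v, hv, G, hG, a3, a4⟩
    rcases le_or_gt (Module.finrank ℝ (spW (mat ω) Gᶜ)) r with h | h
    · obtain ⟨φ, hf⟩ := few2_exists G v a3
      let Z : Submodule ℝ (Fin n → ℝ) :=
        { carrier := {x | ∀ i ∈ Gᶜ, ∑ j, mat ω i j * x j = 0}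
          add_mem' := fun {a b} ha hb i hi => by
            simp [mul_add, sum_add_distrib, ha i hi, hb i hi]
          zero_mem' := fun _ _ => by simp
          smul_mem' := fun c x hx i hi => by
            simp [mul_left_comm _ c, ← mul_sum, hx i hi] }
      have hr := finrank_split (mat ω) G φ (constOn (few2f G φ) ⊓ Z) fun x hx => ⟨hx.1, hx.2⟩
      obtain ⟨Q, b1, b2⟩ := few_rows (mat ω) (m + r) (constOn (few2f G φ) ⊓ Z) (by omega)
      have b3 := le_card_sdiff Q G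
      obtain ⟨T, b4, b5⟩ := exists_subset_card_eq (show 2 * L * s ≤ (G \ Q).card by omega)
      refine Or.inl ⟨(G, T, Q), mem_filter.2 ⟨mem_univ _, hG, b5, b1,
        disjoint_left.2 fun x hx hx' => ?_⟩, φ, mem_univ _,
        ⟨v, hf, few3_mono (b4.trans sdiff_subset) (fun _ => rfl) a4, hv⟩, fun x hx h' =>
          b2 x ⟨hx, fun i hi => h' i (mem_union_left _ hi)⟩
            fun i hi => h' i (mem_union_right _ hi)⟩
      rcases mem_union.1 hx with hx | hx
      · exact mem_compl.1 hx (mem_sdiff.1 (b4 hx')).1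
      · exact (mem_sdiff.1 (b4 hx')).2 hx
    · obtain ⟨I, hI, h⟩ := gauss (r + 1) _ h
      exact Or.inr ⟨(_, I), mem_univ _, hI, fun a ha =>
        (h a ha).imp fun x hx => ⟨hx.1.1, hx.2, hx.1.2⟩⟩
  · exact mul_le_mul_of_nonneg_left (pow_le_pow_of_le_one (by norm_num) (by norm_num)
      (Nat.choose_le_choose 2 (by omega))) (by positivity)

end Vale.Agent.P160
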