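import Vale.Agent.P160.Key

namespace Vale.Agent.P160

open Finset Filter

open Classical in
theorem block2 {n : ℕ} (R T : Finset (Fin n)) (hRT : Disjoint R T) {ρ : ℝ} (hρ : 0 ≤ ρ)
    (P : (Fin n → ℝ) → Prop)
    (hP : ∀ v, P v → ∀ w : Fin n → ℝ, (∀ j, |w j| = |v j|) → ∀ c : ℝ,
      ((T.powerset.filter fun η => ∑ j ∈ η, w j = c).card : ℝ) ≤ ρ * 2 ^ T.card)
    (F : (Sym2 (Fin n) → Bool) → Fin n → ℝ)
    (hF : ∀ ω ω', (∀ e, (¬ ∃ i ∈ R, ∃ j ∈ T, e = s(i, j)) → ω e = ω' e) → F ω = F ω') :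
    ((univ.filter fun ω : Sym2 (Fin n) → Bool => P (F ω) ∧
      ∀ i ∈ R, ∑ j, mat ω i j * F ω j = 0).card : ℝ) ≤
      ρ ^ R.card * (Fintype.card (Sym2 (Fin n) → Bool) : ℝ) := by
  induction R using Finset.induction_on with
  | empty =>
    rw [card_empty, pow_zero, one_mul]
    exact_mod_cast card_le_univ _
  | insert i R hi ih =>
    have hd : Disjoint R T := hRT.mono_left (subset_insert _ _)
    have ih' := ih hd fun ω ω' h => hF ω ω' fun e he => h e fun ⟨a, ha, b⟩ =>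
      he ⟨a, mem_insert_of_mem ha, b⟩
    set A := univ.filter fun ω : Sym2 (Fin n) → Bool => P (F ω) ∧
      ∀ i' ∈ insert i R, ∑ j, mat ω i' j * F ω j = 0 with hA
    set B := univ.filter fun ω : Sym2 (Fin n) → Bool => P (F ω) ∧
      ∀ i' ∈ R, ∑ j, mat ω i' j * F ω j = 0 with hB
    have hFf : ∀ η ⊆ T, ∀ ω, F (Block_fl i η ω) = F ω := by
      intro η hη ω
      refine hF _ _ fun e he => Block_off ω ?_
      rintro ⟨j, hj, h⟩
      exact he ⟨i, mem_insert_self _ _, j, hη hj, h⟩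
    have hrow : ∀ η ⊆ T, ∀ ω, ∀ i' ∈ R, ∀ j, mat (Block_fl i η ω) i' j = mat ω i' j := by
      intro η hη ω i' hi' j
      unfold mat
      rw [Block_off ω]
      rintro ⟨j', hj', h⟩
      rcases Sym2.eq_iff.1 h with ⟨h1, _⟩ | ⟨h1, _⟩
      · exact hi (h1 ▸ hi')
      · exact disjoint_left.1 hd hi' (h1 ▸ hη hj')
    have h1 : ∀ η ∈ T.powerset, (univ.filter fun ω => Block_fl i η ω ∈ A).card = A.card := by
      intro η _
      refine card_bij (fun ω _ => Block_fl i η ω) (fun ω h => (mem_filter.1 h).2)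
        (fun a _ b _ h => (Block_invol i η).injective h) fun b hb =>
          ⟨Block_fl i η b, mem_filter.2 ⟨mem_univ _, by rw [Block_invol i η b]; exact hb⟩,
            Block_invol i η b⟩
    have h2 : ∀ ω, ((T.powerset.filter fun η => Block_fl i η ω ∈ A).card : ℝ) ≤
        if ω ∈ B then ρ * 2 ^ T.card else 0 := by
      intro ω
      split_ifs with hω
      · refine le_trans (Nat.cast_le.2 (card_le_card ?_)) (hP _ (mem_filter.1 hω).2.1
          (fun j => mat ω i j * F ω j) ?_ ((∑ j, mat ω i j * F ω j) / 2))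
        · intro η hη
          obtain ⟨h3, h4⟩ := mem_filter.1 hη
          refine mem_filter.2 ⟨h3, ?_⟩
          have h5 := (mem_filter.1 h4).2.2 i (mem_insert_self _ _)
          rw [hFf η (mem_powerset.1 h3)] at h5
          simp only [Block_row, sub_mul, sum_sub_distrib, mul_assoc, ← mul_sum, ite_mul, zero_mul,
            sum_ite_mem, univ_inter] at h5
          linarith
        · intro j
          unfold mat
          split_ifs <;> simp
      · rw [Nat.cast_nonpos, card_eq_zero, filter_eq_empty_iff]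
        intro η hη h4
        apply hω
        have h5 := (mem_filter.1 h4).2
        rw [hFf η (mem_powerset.1 hη)] at h5
        refine mem_filter.2 ⟨mem_univ _, h5.1, fun i' hi' => ?_⟩
        have h6 := h5.2 i' (mem_insert_of_mem hi')
        simpa only [hrow η (mem_powerset.1 hη) ω i' hi'] using h6
    have h3 : (2 : ℝ) ^ T.card * A.card ≤ 2 ^ T.card * (ρ * B.card) := by
      have h5 : 2 ^ T.card * A.card =
          ∑ ω, (T.powerset.filter fun η => Block_fl i η ω ∈ A).card := by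
        calc 2 ^ T.card * A.card = ∑ η ∈ T.powerset, A.card := by
              rw [sum_const, card_powerset, smul_eq_mul]
          _ = ∑ η ∈ T.powerset, (univ.filter fun ω => Block_fl i η ω ∈ A).card :=
              (sum_congr rfl h1).symm
          _ = _ := by
              simp only [card_filter]
              exact sum_comm
      calc (2 : ℝ) ^ T.card * A.card =
            ∑ ω, ((T.powerset.filter fun η => Block_fl i η ω ∈ A).card : ℝ) := by
            exact_mod_cast h5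
        _ ≤ ∑ ω, if ω ∈ B then ρ * 2 ^ T.card else 0 := sum_le_sum fun ω _ => h2 ω
        _ = 2 ^ T.card * (ρ * B.card) := by
            rw [sum_ite_mem, univ_inter, sum_const, nsmul_eq_mul]; ring
    have h4 : (A.card : ℝ) ≤ ρ * B.card := le_of_mul_le_mul_left h3 (by positivity)
    rw [card_insert_of_notMem hi, pow_succ', mul_assoc]
    exact h4.trans (mul_le_mul_of_nonneg_left ih' hρ)

open Classical in
theorem key2 {n : ℕ} (W : Set (Fin n → ℝ)) (R T Q : Finset (Fin n)) (hRT : Disjoint R T)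
    (hRQ : Disjoint R Q) (hQ : Disjoint Q T) {ρ : ℝ} (hρ : 0 ≤ ρ) (P : (Fin n → ℝ) → Prop)
    (hP : ∀ v, P v → ∀ w : Fin n → ℝ, (∀ j, |w j| = |v j|) → ∀ c : ℝ,
      ((T.powerset.filter fun η => ∑ j ∈ η, w j = c).card : ℝ) ≤ ρ * 2 ^ T.card) :
    prob n (fun A => (∃ v ∈ W, P v ∧ ∀ i, ∑ j, A i j * v j = 0) ∧
      ∀ x ∈ W, (∀ i ∈ Q, ∑ j, A i j * x j = 0) → ∀ i, ∑ j, A i j * x j = 0) ≤ ρ ^ R.card := by
  let Pr : (Sym2 (Fin n) → Bool) → (Fin n → ℝ) → Prop := fun ω x =>
    x ∈ W ∧ P x ∧ ∀ i ∈ Q, ∑ j, mat ω i j * x j = 0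
  have hPr : ∀ ω ω' : Sym2 (Fin n) → Bool,
      (∀ e, (¬ ∃ i ∈ R, ∃ j ∈ T, e = s(i, j)) → ω e = ω' e) → Pr ω = Pr ω' := by
    intro ω ω' h
    funext x
    refine propext ⟨fun hx => ⟨hx.1, hx.2.1, fun i hi => ?_⟩,
      fun hx => ⟨hx.1, hx.2.1, fun i hi => ?_⟩⟩
    · rw [← key_row W R T Q hRQ (Or.inl hQ) ω ω' h hx.1 hi]; exact hx.2.2 i hi
    · rw [key_row W R T Q hRQ (Or.inl hQ) ω ω' h hx.1 hi]; exact hx.2.2 i hi
  have hb := block2 R T hRT hρ P hP (fun ω => Classical.epsilon (Pr ω))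
    (fun ω ω' h => by rw [hPr ω ω' h])
  have hc : (0 : ℝ) < (Fintype.card (Sym2 (Fin n) → Bool) : ℝ) :=
    Nat.cast_pos.2 Fintype.card_pos
  unfold prob
  rw [div_le_iff₀ hc]
  refine le_trans (Nat.cast_le.2 (card_le_card fun ω hω => ?_)) hb
  simp only [mem_filter, mem_univ, true_and] at hω ⊢
  obtain ⟨⟨v, hvW, hvT, hv⟩, hall⟩ := hω
  have hs : Pr ω (Classical.epsilon (Pr ω)) :=
    Classical.epsilon_spec ⟨v, hvW, hvT, fun i _ => hv i⟩
  exact ⟨hs.2.1, fun i _ => hall _ hs.1 hs.2.2 i⟩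

end Vale.Agent.P160
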