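import Vale.Agent.P160L.EM

namespace Vale.Agent.P160

open Finset Filter

open Classical in
theorem sel {n : ℕ} (v : Fin n → ℝ) (G : Finset (Fin n)) (B : ℕ) (hB : 2 ≤ B)
    (hn : n < 8 * B ^ 100) (h0 : ∀ j ∈ G, v j ≠ 0) (h : 16 * (G.image v).card ≤ G.card) :
    ∃ i < 100, ∃ G' ⊆ G, G.card ≤ 200 * G'.card ∧ (G'.image v).card ≤ G'.card / (4 * B ^ i) ∧
      GoodM G' (8 * B ^ (i + 1)) v := by
  obtain ⟨mult, hmult⟩ : ∃ mult : Fin n → ℕ,
      ∀ j, mult j = (G.filter fun k => |v k| = |v j|).card := ⟨_, fun _ => rfl⟩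
  have hmeq : ∀ j k, |v k| = |v j| → mult k = mult j := fun j k hk => by
    rw [hmult, hmult, hk]
  have hmn : ∀ j, mult j ≤ n := fun j => by
    rw [hmult]
    exact (card_le_univ _).trans (by simp)
  have hS : (G.filter fun j => ¬ 8 ≤ mult j).card ≤ 8 * (G.image v).card := by
    refine card_le_mul_card_image_of_maps_to (f := v)
      (fun a ha => mem_image_of_mem v (mem_filter.1 ha).1) 8 fun b _ => ?_
    rcases ((G.filter fun j => ¬ 8 ≤ mult j).filter fun a => v a = b).eq_empty_or_nonempty with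
      he | ⟨a, ha⟩
    · rw [he]
      simp
    · obtain ⟨ha1, ha2⟩ := mem_filter.1 ha
      have h1 := (mem_filter.1 ha1).2
      have h2 : ((G.filter fun j => ¬ 8 ≤ mult j).filter fun a => v a = b).card ≤ mult a := by
        rw [hmult]
        refine card_le_card fun k hk => ?_
        obtain ⟨hk1, hk2⟩ := mem_filter.1 hk
        exact mem_filter.2 ⟨(mem_filter.1 hk1).1, by rw [hk2, ha2]⟩
      omega
  have hL := card_filter_add_card_filter_not (s := G) (fun j => 8 ≤ mult j)
  set L := G.filter fun j => 8 ≤ mult j with hLdef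
  obtain ⟨f, hf⟩ : ∃ f : Fin n → ℕ, ∀ j, f j = Nat.log B (mult j / 8) := ⟨_, fun _ => rfl⟩
  have hmaps : ∀ j ∈ L, f j ∈ range 100 := fun j hj => by
    have h1 := (mem_filter.1 hj).2
    have h2 := hmn j
    rw [mem_range, hf]
    exact Nat.log_lt_of_lt_pow (by omega) (by omega)
  have hsum := card_eq_sum_card_fiberwise (f := f) (s := L) (t := range 100) hmaps
  obtain ⟨i, hi, hi2⟩ := exists_le_of_sum_le (s := range 100) (f := fun _ => G.card)
    (g := fun i => 200 * (L.filter fun j => f j = i).card) ⟨0, by simp⟩ (by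
      rw [← mul_sum, ← hsum, sum_const, card_range, smul_eq_mul]
      omega)
  set G' := L.filter fun j => f j = i with hG'
  have hsub : G' ⊆ G := (filter_subset _ _).trans (filter_subset _ _)
  have hbd : ∀ j ∈ G', 8 * B ^ i ≤ mult j ∧ mult j ≤ 8 * B ^ (i + 1) := fun j hj => by
    obtain ⟨h1, h2⟩ := mem_filter.1 hj
    have h3 := (mem_filter.1 h1).2
    have h4 := Nat.pow_log_le_self B (show mult j / 8 ≠ 0 by omega)
    have h5 := Nat.lt_pow_succ_log_self (show 1 < B by omega) (mult j / 8)
    rw [← hf, h2] at h4 h5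
    rw [Nat.succ_eq_add_one] at h5
    omega
  refine ⟨i, mem_range.1 hi, G', hsub, hi2, ?_, fun j hj => h0 j (hsub hj), fun j hj => ?_⟩
  · have h1 : 8 * B ^ i * (G'.image fun j => |v j|).card ≤ G'.card := by
      refine mul_card_image_le_card G' _ fun b hb => ?_
      obtain ⟨j, hj, rfl⟩ := mem_image.1 hb
      refine (hbd j hj).1.trans ?_
      rw [hmult]
      refine card_le_card fun k hk => ?_
      obtain ⟨hk1, hk2⟩ := mem_filter.1 hk
      obtain ⟨hj1, hj2⟩ := mem_filter.1 hj
      have h3 := hmeq j k hk2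
      refine mem_filter.2 ⟨mem_filter.2 ⟨mem_filter.2 ⟨hk1, ?_⟩, ?_⟩, hk2⟩
      · rw [h3]
        exact (mem_filter.1 hj1).2
      · rw [hf, h3, ← hf, hj2]
    have h2 : (G'.image v).card ≤ 2 * (G'.image fun j => |v j|).card := by
      refine card_le_mul_card_image_of_maps_to (f := fun x : ℝ => |x|) (fun a ha => ?_) 2
        fun b _ => ?_
      · obtain ⟨j, hj, rfl⟩ := mem_image.1 ha
        exact mem_image_of_mem (fun j => |v j|) hj
      · refine (card_le_card fun x hx => ?_).trans (card_le_two (a := b) (b := -b))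
        have h3 := (mem_filter.1 hx).2
        rcases abs_choice x with h4 | h4
        · exact mem_insert.2 (Or.inl (h4.symm.trans h3))
        · exact mem_insert.2 (Or.inr (mem_singleton.2 (by linarith)))
    rw [Nat.le_div_iff_mul_le (by positivity)]
    calc _ ≤ 2 * (G'.image fun j => |v j|).card * (4 * B ^ i) := Nat.mul_le_mul_right _ h2
      _ = 8 * B ^ i * (G'.image fun j => |v j|).card := by ring
      _ ≤ _ := h1
  · refine le_trans ?_ (hbd j hj).2
    rw [hmult]
    exact card_le_card (filter_subset_filter _ hsub)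

end Vale.Agent.P160
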