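import Vale.Agent.P160.Main
import Vale.Agent.P160L.Few3
import Vale.Agent.P160L.Sel
import Vale.Agent.P160L.Asym3

namespace Vale.Agent.P160

open Finset Filter Topology

open Classical in
theorem upperL {ε δ : ℝ} (hε : 0 < ε) (hε1 : ε < 1) (hδ : 0 < δ) : ∀ᶠ n : ℕ in atTop,
    prob n (fun A => ∃ v : Fin n → ℝ, v ≠ 0 ∧ (∀ i, ∑ j, A i j * v j = 0) ∧
      ∃ G : Finset (Fin n), ε * n ≤ G.card ∧ 32 * (G.image v).card ≤ G.card) ≤
      (1 / 2 + δ) ^ n := by
  obtain ⟨γ, hγ, hs⟩ := asym_small (half_pos hδ)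
  obtain ⟨θ, hθ, hb⟩ := asym_big hγ (half_pos hε) (by linarith)
  have hfin : ∀ᶠ n : ℕ in atTop, (1 / 2 + δ / 2) ^ n + 3 * (1 / 4 : ℝ) ^ n ≤ (1 / 2 + δ) ^ n := by
    have h1 : Tendsto (fun n : ℕ => ((1 / 2 + δ / 2) / (1 / 2 + δ)) ^ n +
        3 * ((1 / 4) / (1 / 2 + δ)) ^ n) atTop (𝓝 (0 + 3 * 0)) := by
      refine (tendsto_pow_atTop_nhds_zero_of_lt_one (by positivity) ?_).add
        ((tendsto_pow_atTop_nhds_zero_of_lt_one (by positivity) ?_).const_mul 3)
      · rw [div_lt_one (by positivity)]; linarith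
      · rw [div_lt_one (by positivity)]; linarith
    filter_upwards [h1.eventually (ge_mem_nhds (by norm_num : (0 : ℝ) + 3 * 0 < 1))] with n hn
    rw [div_pow, div_pow, ← mul_div_assoc, ← add_div, div_le_one (by positivity)] at hn
    exact hn
  have hlin : ∀ᶠ n : ℕ in atTop, (200 * n : ℝ) * (1 / 2) ^ n ≤ 1 := by
    have h1 := (tendsto_self_mul_const_pow_of_lt_one (r := (1 / 2 : ℝ)) (by norm_num)
      (by norm_num)).const_mul 200
    filter_upwards [h1.eventually (ge_mem_nhds (by norm_num : (200 : ℝ) * 0 < 1))] with n hn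
    rwa [← mul_assoc] at hn
  filter_upwards [hb, asym3 (γ := ε / 400) (by positivity), hfin, hlin, eventually_ge_atTop 1]
    with n hb hf hfin hlin hn1
  obtain ⟨B, s, r, hB, hn, hs1, hr, hf⟩ := hf
  have a1 := (sparse_small n ⌊γ * n⌋₊).trans (hs n)
  have a2 := (sparse_big n ⌊γ * n⌋₊ ⌊(1 - ε / 2) * n⌋₊ ⌊ε / 2 / 2 * n⌋₊ hθ hb.1).trans hb.2
  obtain ⟨J, hJ⟩ : ∃ J : ℕ, J = 100 := ⟨_, rfl⟩
  have a3 := sp_union (n := n) (range J ×ˢ Icc 1 n) (fun a => ε / 400 * n ≤ (a.2 : ℝ))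
    (fun a A => ∃ v : Fin n → ℝ, (∀ i, ∑ j, A i j * v j = 0) ∧
      ∃ G : Finset (Fin n), G.card = a.2 ∧ (G.image v).card ≤ a.2 / (4 * B ^ a.1) ∧
        GoodM G (8 * B ^ (a.1 + 1)) v) (b := 2 * (1 / 8) ^ n) (by positivity) (fun a ha hp => by
      obtain ⟨b1, b2, b3⟩ := hf a.1 (hJ ▸ mem_range.1 (mem_product.1 ha).1) a.2 hp
        (mem_Icc.1 (mem_product.1 ha).2).2
      have := few3_bound n a.2 _ _ B s r hs1 b1 b2
      linarith)
  have a4 : ((range J ×ˢ Icc 1 n).card : ℝ) * (2 * (1 / 8) ^ n) ≤ (1 / 4) ^ n := by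
    rw [card_product, card_range, Nat.card_Icc, show (1 / 8 : ℝ) = 1 / 2 * (1 / 4) by norm_num,
      mul_pow, Nat.add_sub_cancel, hJ]
    have := mul_le_mul_of_nonneg_right hlin (by positivity : (0 : ℝ) ≤ (1 / 4) ^ n)
    push_cast
    linarith
  refine le_trans (le_trans (prob_mono fun ω h => ?_) ((prob_or _ _).trans
    (add_le_add a1 ((prob_or _ _).trans (add_le_add a2 (a3.trans a4)))))) (by linarith)
  obtain ⟨v, hv, hA, G, hG, hm⟩ := h
  by_cases c1 : (univ.filter fun j => v j ≠ 0).card ≤ ⌊γ * n⌋₊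
  · exact Or.inl ⟨v, hv, hA, c1⟩
  by_cases c2 : (univ.filter fun j => v j ≠ 0).card ≤ ⌊(1 - ε / 2) * n⌋₊
  · exact Or.inr (Or.inl ⟨v, hA, not_le.1 c1, c2⟩)
  have d1 : (1 - ε / 2) * n < ((univ.filter fun j => v j ≠ 0).card : ℝ) :=
    Nat.lt_of_floor_lt (not_le.1 c2)
  have d2 : G.card + (univ.filter fun j => v j ≠ 0).card ≤
      n + (G ∩ univ.filter fun j => v j ≠ 0).card := by
    rw [← card_union_add_card_inter]
    have := card_le_univ (G ∪ univ.filter fun j => v j ≠ 0)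
    rw [Fintype.card_fin] at this
    omega
  have d3 : (G.card : ℝ) ≤ 2 * (G ∩ univ.filter fun j => v j ≠ 0).card := by
    have : (G.card : ℝ) + (univ.filter fun j => v j ≠ 0).card ≤
      n + (G ∩ univ.filter fun j => v j ≠ 0).card := by exact_mod_cast d2
    linarith
  have d4 : G.card ≤ 2 * (G ∩ univ.filter fun j => v j ≠ 0).card := by exact_mod_cast d3
  have d5 := card_le_card (image_subset_image (f := v)
    (inter_subset_left (s₁ := G) (s₂ := univ.filter fun j => v j ≠ 0)))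
  obtain ⟨i, hi, G', -, e1, e2, e3⟩ := sel v (G ∩ univ.filter fun j => v j ≠ 0) B hB hn
    (fun j hj => (mem_filter.1 (mem_inter.1 hj).2).2) (by omega)
  have e4 : ε / 400 * n ≤ (G'.card : ℝ) := by
    have : ((G ∩ univ.filter fun j => v j ≠ 0).card : ℝ) ≤ 200 * G'.card := by exact_mod_cast e1
    linarith
  have e5 : 1 ≤ G'.card := by
    have : (0 : ℝ) < ε / 400 * n := by positivity
    exact_mod_cast this.trans_le e4
  have e6 := card_le_univ G'
  rw [Fintype.card_fin] at e6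
  exact Or.inr (Or.inr ⟨(i, G'.card), mem_product.2 ⟨mem_range.2 (hJ ▸ hi), mem_Icc.2 ⟨e5, e6⟩⟩, e4,
    v, hA, G', rfl, e2, e3⟩)

open Classical in
theorem lowerL {ε : ℝ} (hε1 : ε < 1) : ∀ᶠ n : ℕ in atTop,
    (1 / 2 : ℝ) ^ n ≤ prob n (fun A => ∃ v : Fin n → ℝ, v ≠ 0 ∧ (∀ i, ∑ j, A i j * v j = 0) ∧
      ∃ G : Finset (Fin n), ε * n ≤ G.card ∧ 32 * (G.image v).card ≤ G.card) := by
  obtain ⟨N, hN⟩ := exists_nat_ge (2 / (1 - ε))
  filter_upwards [eventually_ge_atTop 34, eventually_ge_atTop N] with n hn hn'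
  let a : Fin n := ⟨0, by omega⟩
  let b : Fin n := ⟨1, by omega⟩
  have hab : a ≠ b := by simp [a, b]
  refine (lower a b hab).trans (prob_mono fun ω h => ?_)
  refine ⟨Pi.single a 1 - Pi.single b 1, fun h0 => ?_, fun i => ?_, ({a, b} : Finset _)ᶜ, ?_, ?_⟩
  · have := congrFun h0 a
    simp [hab] at this
  · simp [mul_sub, sum_sub_distrib, Pi.single_apply, h i]
  · rw [card_compl, card_pair hab, Fintype.card_fin, Nat.cast_sub (by omega)]
    have h1 : (N : ℝ) ≤ n := by exact_mod_cast hn'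
    have h2 := (div_le_iff₀ (by linarith)).1 (hN.trans h1)
    push_cast
    linarith
  · rw [card_compl, card_pair hab, Fintype.card_fin]
    refine le_trans (Nat.mul_le_mul_left 32 (le_trans (card_le_card (t := {0}) fun x hx => ?_)
      (card_singleton _).le)) (by omega)
    obtain ⟨j, hj, rfl⟩ := mem_image.1 hx
    simp only [mem_compl, mem_insert, mem_singleton, not_or] at hj
    simp [hj.1, hj.2]

end Vale.Agent.P160
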